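import Vale.Agent.P123.Final

/-! The optimal constant in the numerical range inequality is `2`. -/

open Polynomial

theorem Vale.Agent.Results.P123.CrouzeixConstantTwo.result :
    (∀ (H : Type*) [NormedAddCommGroup H] [InnerProductSpace ℂ H] [Nontrivial H]
      (A : H →L[ℂ] H) (P : ℂ[X]) (M : ℝ),
        (∀ x : H, ‖x‖ = 1 → ‖P.eval (inner ℂ x (A x))‖ ≤ M) → ‖aeval A P‖ ≤ 2 * M) ∧
    ∀ C : ℝ, (∀ (H : Type) [NormedAddCommGroup H] [InnerProductSpace ℂ H] [CompleteSpace H]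
      [Nontrivial H] (A : H →L[ℂ] H) (P : ℂ[X]) (M : ℝ),
        (∀ x : H, ‖x‖ = 1 → ‖P.eval (inner ℂ x (A x))‖ ≤ M) → ‖aeval A P‖ ≤ C * M) → 2 ≤ C := by
  refine ⟨fun H _ _ _ A P M h => Vale.Agent.P123.two_bound A P h, fun C hC => ?_⟩
  obtain ⟨A, hA, hW⟩ := Vale.Agent.P123.two_sharp
  have h := hC (EuclideanSpace ℂ (Fin 2)) A X (1 / 2) hW
  rw [hA] at h
  linarith
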